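import Crest.Agent.X262.Sg1.Lat

/-!
# Row 262, SURF (helper1), part 3: `flagStmt`, `upStmt`, `lowStmt`
-/

set_option autoImplicit false

noncomputable section

namespace Crest.Agent.X262.Sg1

open Crest.Agent.R274
open Cx_781 Defs_781 Ses_781 Lat_781 Num_413 Finset Matrix
open Crest.Agent.X277 Crest.Agent.X277.Lef Crest.Agent.X277.AN.G1 Crest.Agent.X277.BD Module Filter
open Crest.Agent.X277.BD.Br (On oP kP)
open Crest.Agent.X262.Surf

variable {F : Type} [Field F] [Algebra ℂ F] [Algebra.EssFiniteType ℂ F]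

/-- a smooth model as a finite cover of a projective space -/
theorem exists_mdl_oP (P : PModel ℂ F) : ∃ M : Mdl ℂ F, M.H = oP P ∧ On P ≤ M.On := by
  obtain ⟨M, hM⟩ : VA (oP P) := by
    refine va_mxf ⟨fun f => ?_⟩
    have h : chart ℂ P.y 0 ≤ (qf ℂ P.y).toSubalgebra := Algebra.adjoin_le (by
      rintro _ ⟨j, rfl⟩
      exact div_mem_qf _ _ _)
    obtain ⟨a, ha, c, hc, -, rfl⟩ := P.frac f
    exact isAlgebraic_algebraMap (⟨_, div_mem (h ha) (h hc)⟩ : qf ℂ P.y)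
  refine ⟨M, hM, fun a ha => ?_⟩
  obtain ⟨m, h⟩ := Br.serre ha
  obtain ⟨m', h'⟩ := Br.serre (neg_mem ha)
  exact Mdl.mem_On_of_free (m := max m m') (hM ▸ h _ (le_max_left _ _))
    (hM ▸ h' _ (le_max_right _ _))

variable {P : PModel ℂ F} {b : B2 F} {c : ℤ} {M : Mdl ℂ F}

/-- the Čech Euler characteristic is the Riemann-Roch expression -/
theorem chi_rr (hM : M.H = oP P) (hle : On P ≤ M.On) (h : Chi P b c) {a : BD ℂ F}
    (ha : a ∈ On P) : 2 * (fm M a).chi = rr P b c a := by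
  have hd := Hor83.dim_two b
  have h1 : ∀ᶠ m : ℕ in atTop, 2 * (fm M 0).chi + qq M a + bnum [a, kP P b] - 2 * c +
      m * (qq M (oP P) + bnum [oP P, kP P b]) = 0 := by
    filter_upwards [h a ha, serre_fm (hle ha)] with m h1 h2
    have h3 := qq_add hd (hle ha) (nsmul_mem (hle Br.oP_mem) m)
    rw [qq_nsmul hd (hle Br.oP_mem), qq, ← hM, h2, hM] at h3
    rw [rr, bnum_sub2, bnum_add a _ [kP P b], bnum_nsmul, h0] at h1
    linarith
  obtain ⟨m, hm⟩ := eventually_atTop.1 h1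
  have h2 := hm m le_rfl
  have h3 := hm (m + 1) (Nat.le_succ m)
  have h4 : qq M (oP P) + bnum [oP P, kP P b] = 0 := by
    push_cast at h3
    linarith
  rw [h4, qq] at h2
  rw [rr, bnum_sub2]
  linarith

variable {N k : ℕ} {Λ : ℕ → Fin N → F} {H : BD ℂ F}

omit [Algebra.EssFiniteType ℂ F] in
theorem Nm_mem {G : AddSubgroup (BD ℂ F)} (hD : ∀ r ≤ k, Dm Λ r ∈ G) {r : ℕ} (hr : r ∈ range k) :
    Nm Λ r ∈ G := sub_mem (hD _ (mem_range.1 hr)) (hD _ (mem_range.1 hr).le)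

theorem lowStmt : LowStmt := by
  intro F _ _ _ P b c N k Λ H hc hr hD hH hB
  obtain ⟨M, hM, hle⟩ := exists_mdl_oP P
  have hd := Hor83.dim_two b
  have h1 := (eventually_all_finset (range k)).2 fun r hr =>
    top_big (by omega) (hle (Nm_mem hD hr)) (hle hH) hB
  filter_upwards [h1] with m hm
  obtain ⟨-, h2, h3⟩ := filt_KF (M := M) hr (fun r hr => hle (hD r hr)) (hle (nsmul_mem hH m))
  have h4 := chi_le hd (Nat.le_zero.1 ((h3 _).trans_eq (sum_eq_zero hm)))
  rw [Γ_KF, h2] at h4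
  rw [← sum_congr rfl fun r hr => chi_rr hM hle hc (add_mem (Nm_mem hD hr) (nsmul_mem hH m)),
    ← mul_sum]
  omega

omit [Algebra.EssFiniteType ℂ F] in
theorem colSp_le (y : BD ℂ F) :
    colSp Λ k y ≤ (Γ (PF N M y 0)).map ((ap Λ k).restrictScalars ℂ) := by
  refine Submodule.span_le.2 ?_
  rintro _ ⟨j, τ, h, rfl⟩
  refine ⟨τ • Pi.single j 1, mem_Γ.2 fun i => ⟨fun e => ?_, fun _ he =>
    absurd he (Nat.not_lt_zero _)⟩, ?_⟩
  · rw [Pi.smul_apply, Pi.single_apply]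
    split_ifs
    · simpa using Mdl.Sec_le_L _ _ h
    · simp
  · change ap Λ k _ = _
    rw [map_smul, ap_single]
    rfl

theorem upStmt : UpStmt := by
  intro F _ _ _ P b c N k Λ H hc hr hD hH hB
  obtain ⟨M, hM, hle⟩ := exists_mdl_oP P
  have hd := Hor83.dim_two b
  have hk := hle (hD k le_rfl)
  filter_upwards [top_big (by omega) (neg_mem hk) (hle hH) hB] with m hm
  have hy := hle (nsmul_mem hH m)
  obtain ⟨f3, h2, -⟩ := filt_KF (M := M) hr (fun r hr => hle (hD r hr)) hy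
  obtain ⟨f2, h3, h4⟩ := filt_PF (N := N) hy
  have E := exact_KK (y := m • H) hr hk
  have f1 : ∀ p, Module.Finite ℂ ((KK Λ M k (m • H)).H p) := fun p => by
    cases p with
    | zero => exact E.ses.finite_A0 (f2 0)
    | succ p => exact E.ses.finite_A p (f3 p) (f2 _)
  have h5 := chi_exact E f1 f2 f3
  have := fin_fm (add_mem (neg_mem hk) hy) (dim ℂ F)
  have := top_KK hr hk (Module.finrank_zero_iff.1 hm)
  have h6 := chi_le (M := KK Λ M k (m • H)) hd Module.finrank_zero_of_subsingleton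
  have h7 := h4 0
  rw [h0_eq, h0_fm hy] at h7
  have : Module.Finite ℂ (Γ (PF N M (m • H) 0)) :=
    haveI := f2 0
    Module.Finite.equiv (H0equiv _).symm
  have h8 := LinearMap.finrank_range_add_finrank_ker
    (((ap Λ k).restrictScalars ℂ).domRestrict (Γ (PF N M (m • H) 0)))
  rw [LinearMap.range_domRestrict, LinearMap.ker_domRestrict] at h8
  have h9 := Submodule.finrank_mono (colSp_le (Λ := Λ) (k := k) (M := M) (m • H))
  have h10 : finrank ℂ (Γ (KK Λ M k (m • H))) ≤ finrank ℂ ((LinearMap.ker ((ap Λ k).restrictScalars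
      ℂ)).comap (Γ (PF N M (m • H) 0)).subtype) := by
    have h11 : Γ (KK Λ M k (m • H)) ≤ Γ (PF N M (m • H) 0) := fun x hx =>
      mem_Γ.2 fun i => E.maps _ (singleton_nonempty i) x (mem_Γ.1 hx i)
    rw [← (Submodule.comapSubtypeEquivOfLe h11).finrank_eq]
    exact Submodule.finrank_mono fun x hx => (mem_Γ.1 hx 0).2
  rw [← sum_congr rfl fun r hr => chi_rr hM hle hc (add_mem (Nm_mem hD hr) (nsmul_mem hH m)),
    ← mul_sum, ← chi_rr hM hle hc (nsmul_mem hH m), ← h2, h0]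
  zify at h7 h8 h9 h10
  linarith

theorem flagStmt : FlagStmt := by
  intro F _ _ _ N k Λ Λ' T hd hr hr' hT
  let A : Matrix (Fin k) (Fin k) F := Matrix.of fun i a => T i a
  have h1 : ∀ c, (mn Λ' k c).det = A.det * (mn Λ k c).det := fun c => by
    rw [← det_mul]
    congr 1
    ext i j
    simp [A, mul_apply, hT i i.2, sum_range]
  have hA : A.det ≠ 0 := hr'.elim fun c hc => left_ne_zero_of_mul (h1 c ▸ hc)
  have h2 : Lin (Dm Λ' k) (Dm Λ k) := ⟨_, hA, by
    rw [Dm, Dm, ← mxf_mul hr hA]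
    exact congrArg _ (funext h1)⟩
  refine ⟨h2, ?_⟩
  obtain ⟨M, hM⟩ := exists_mdl ((List.range (k + 1)).map (Dm Λ) ++ (List.range (k + 1)).map (Dm Λ'))
  have hD : ∀ r ≤ k, Dm Λ r ∈ M.On := fun r h => hM _ (List.mem_append_left _
    (List.mem_map_of_mem (List.mem_range.2 (Nat.lt_succ_of_le h))))
  have hD' : ∀ r ≤ k, Dm Λ' r ∈ M.On := fun r h => hM _ (List.mem_append_right _
    (List.mem_map_of_mem (List.mem_range.2 (Nat.lt_succ_of_le h))))
  have h3 : ∀ τ, ap Λ' k τ = A *ᵥ ap Λ k τ := fun τ => funext fun i => by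
    simp only [ap_apply, mulVec, dotProduct, A, of_apply, hT i i.2, sum_range, mul_sum]
    rw [sum_comm]
    exact sum_congr rfl fun _ _ => sum_congr rfl fun _ _ => by ring
  let e : (Fin k → F) ≃ₗ[F] (Fin k → F) := Matrix.toLinearEquiv' A
    (invertibleOfIsUnitDet A hA.isUnit)
  have he : ∀ v, e v = A *ᵥ v := fun v => rfl
  have h4 : (KF Λ M k 0 0).chi = (KF Λ' M k 0 0).chi := by
    refine chi_iso (e.restrictScalars ℂ) (fun I _ x hx => ⟨fun V hV => ?_, fun _ he =>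
      absurd he (Nat.not_lt_zero _)⟩) fun I _ x hx => ⟨fun V hV => ?_, fun _ he =>
      absurd he (Nat.not_lt_zero _)⟩
    · obtain ⟨τ, h4, rfl⟩ := hx.1 V hV
      exact ⟨τ, h4, (h3 τ).symm⟩
    · obtain ⟨τ, h4, rfl⟩ := hx.1 V hV
      exact ⟨τ, h4, e.symm_apply_eq.2 (h3 τ)⟩
  rw [(filt_KF hr hD (zero_mem _)).2.1, (filt_KF hr' hD' (zero_mem _)).2.1] at h4
  have h5 := qq_lin (M := M) h2
  rw [← sum_Nm, ← sum_Nm, qq_sum hd _ fun r hr => Nm_mem hD hr,
    qq_sum hd _ fun r hr => Nm_mem hD' hr] at h5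
  simp only [qq, sum_sub_distrib, ← mul_sum, add_zero] at h4 h5
  linarith

end Crest.Agent.X262.Sg1
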