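import Crest.Agent.X277.BD.Num

/-!
# Row 262, SURF (helper1), part 1: Čech cohomology on a model

* `groth`    : Grothendieck vanishing; `top_big` : the top cohomology of `a + m H`, `H` big;
* `h_iso`, `filt`, `top_of_gen` : isomorphic, filtered and generated families;
* `chi_add`, `chi_lin`, `qq` : the Euler characteristic of a line bundle on a surface.
-/

set_option autoImplicit false

noncomputable section

namespace Crest.Agent.X262.Sg1

open Crest.Agent.R274
open Cx_781 Defs_781 Ses_781 Lat_781 Ser_781 PolyFun_413 Snap_413 Coh_413 Finset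
  Num_413 Dim_413 Dev_413 Sec_413 Fuj_413
open Crest.Agent.X277 Crest.Agent.X277.BD Crest.Agent.X277.AN.G2 Module Filter

universe u w

section Groth

variable {k : Type u} [Field k] {F : Type u} [Field F] [Algebra k F] {n : ℕ}
variable {X : Var k F n} {G : Type w} [AddCommGroup G] {S : Pol X G}

/-- **Grothendieck vanishing** -/
theorem groth (d : ℕ) : ∀ Q : Coh X, DimLT S Q d → ∀ (g : G) (i : ℕ), d ≤ i →
    hh S.toLineSys Q g i = 0 := by
  induction d with
  | zero => exact fun Q h g i _ => by rw [hh_zero_of_dimLT_zero h]; rfl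
  | succ d ih =>
  refine devissage S (fun Q => DimLT S Q (d + 1) → ∀ (g : G) (i : ℕ), d + 1 ≤ i →
    hh S.toLineSys Q g i = 0) ?_ ?_ ?_ ?_
  · intro Q Q' h h1 h2 g i hi
    have h3 := cc_congr h
    rw [← h]
    refine h1 ?_ g i hi
    unfold DimLT at h2 ⊢
    rwa [h3]
  · intro Q h _ g i _
    rw [h]
    rfl
  · intro Q₁ Q₂ Q₃ E h1 h3 h2 g i hi
    obtain ⟨hd1, hd3⟩ := E.dim_of_mid h2
    exact (E.ne g).b_zero (h1 hd1 g i hi) (h3 hd3 g i hi)
  · intro P hP e hd g i hi
    rw [dimLT_twC] at hd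
    rw [hh_twC]
    generalize e • S.H + g = x
    obtain ⟨e1, he1⟩ := exists_global (S := S) hP (0 : G)
    obtain ⟨e2, he2⟩ := serre S (OZ P hP.le) x
    obtain ⟨v, hv, hnz⟩ := he1 (max e1 e2) (le_max_left _ _)
    have E := nex_sec hP (const_mem_Sec (P := P) hv) hnz
    have h1 := ih _ (dim_Csec hP hd (const_mem_Sec (P := P) hv) hnz) x
    obtain ⟨j, rfl⟩ := Nat.exists_eq_succ_of_ne_zero (show i ≠ 0 by omega)
    have h2 := (E.ne x).a_eq_b (i := j) (h1 j (by omega)) (h1 _ (by omega))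
    rw [hh_twC] at h2
    rw [h2, show 0 + max e1 e2 • S.H + x = x + max e1 e2 • S.H by abel]
    exact he2 _ (le_max_right _ _) _ (by omega)

theorem hh_fam (g : G) (i : ℕ) : hh S.toLineSys (OX X) g i = (S.fam g).cech.h i := by
  unfold OX
  rw [hh_ofLat]
  exact ((eqv_tw_O g).H i).finrank_eq

theorem cc_fam (g : G) : cc S.toLineSys (OX X) g = (S.fam g).chi := by
  rw [cc_eq]
  exact sum_congr rfl fun i _ => by rw [hh_fam]

theorem fin_fam (g : G) (i : ℕ) : Module.Finite k ((S.fam g).H i) :=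
  haveI : Module.Finite k ((S.tw (XO X).toFam g).H i) :=
    finite_H (twX S.toLineSys (XO X) g).toLat i
  Module.Finite.equiv ((eqv_tw_O (S := S) g).H i)

/-- the top cohomology decreases if an effective divisor is added -/
theorem top_add {g a : G} {v : F} (hv : v ∈ Γ (S.fam a)) (h0 : v ≠ 0)
    (h : hh S.toLineSys (OX X) g n = 0) : hh S.toLineSys (OX X) (a + g) n = 0 := by
  have hnz := (nz_top (S := S) (g := a)).2 h0
  have E := nex_sec (top X).prime (const_mem_Sec (P := (top X).P) hv) hnz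
  have h1 := groth n _ (dim_Csec (top X).prime (dimLT_top S _)
    (const_mem_Sec (P := (top X).P) hv) hnz) g n le_rfl
  have h2 := (E.ne g).b_zero h h1
  rwa [hh_twC] at h2

end Groth

section Fam

variable {k : Type u} [Field k] {n : ℕ} {V W : Type u} [AddCommGroup V] [Module k V]
  [AddCommGroup W] [Module k W]

/-- isomorphic families -/
theorem h_iso {M : Fam k V n} {N : Fam k W n} (e : V ≃ₗ[k] W) (h : M.Maps N e)
    (h' : N.Maps M e.symm) (p : ℕ) : M.cech.h p = N.cech.h p := by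
  refine (LinearEquiv.ofBijective (h.hom.H p) (H_bijective _ (fun p => ⟨fun a b hab => ?_,
    fun c => ⟨h'.cochMap p c, ?_⟩⟩) p)).finrank_eq
  · exact Subtype.ext (funext fun I => e.injective (congrFun (congrArg Subtype.val hab) I))
  · exact Subtype.ext (funext fun I => e.apply_symm_apply _)

theorem chi_iso {M : Fam k V n} {N : Fam k W n} (e : V ≃ₗ[k] W) (h : M.Maps N e)
    (h' : N.Maps M e.symm) : M.chi = N.chi := by
  simp only [Fam.chi, Cx.eul, h_iso e h h']

/-- filtered families -/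
theorem filt (K : ℕ → Fam k V n) (g : ℕ → Fam k W n) (π : ℕ → V →ₗ[k] W) (m : ℕ)
    (hE : ∀ j < m, Exact (K (j + 1)) (K j) (g j) LinearMap.id (π j))
    (hK : ∀ I, I.Nonempty → ∀ x ∈ (K m).M I, x = 0)
    (hg : ∀ j < m, ∀ p, Module.Finite k ((g j).H p)) : (∀ p, Module.Finite k ((K 0).H p)) ∧
      (K 0).chi = ∑ r ∈ range m, (g r).chi ∧
        ∀ p, (K 0).cech.h p ≤ ∑ r ∈ range m, (g r).cech.h p := by
  induction m generalizing K g π with
  | zero =>
    have h1 : ∀ p, Subsingleton ((K 0).H p) := fun p => Cx.H_subsingleton_of_X _ _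
      ⟨fun a b => Subtype.ext (funext fun I => by
        have h2 : ∀ c : (K 0).coch p, c.1 I = 0 := fun c => by
          by_cases hI : I.card = p + 1
          · exact hK I (nonempty_of_card hI) _ ((c.2 I).1 hI)
          · exact (c.2 I).2 hI
        exact (h2 a).trans (h2 b).symm)⟩
    have h2 : ∀ p, (K 0).cech.h p = 0 := fun p => Module.finrank_zero_of_subsingleton
    refine ⟨fun p => Module.Finite.of_finite, ?_, fun p => by simp [h2]⟩
    simp [Fam.chi, Cx.eul, h2]
  | succ m ih =>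
    obtain ⟨h1, h2, h3⟩ := ih (fun j => K (j + 1)) (fun j => g (j + 1)) (fun j => π (j + 1))
      (fun j hj => hE _ (by omega)) hK fun j hj => hg _ (by omega)
    have E := hE 0 (by omega)
    have h4 := fun p => E.ses.finite_B p (h1 p) (hg 0 (by omega) p)
    refine ⟨h4, ?_, fun p => ?_⟩
    · rw [chi_exact E h1 h4 (hg 0 (by omega)), h2, sum_range_succ']
    · rw [sum_range_succ']
      exact ((ne_of_ses E.ses h1 h4 (hg 0 (by omega))).b_le p).trans (by
        have := h3 p
        omega)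

/-- the top cohomology of a generated family -/
theorem top_of_gen {ι : Type*} [Fintype ι] {M : Fam k V n} {N : Fam k W n} (ρ : ι → W →ₗ[k] V)
    (h : ∀ i, N.Maps M (ρ i)) (hs : ∀ x ∈ M.M univ, ∃ φ : ι → W, (∀ i, φ i ∈ N.M univ) ∧
      x = ∑ i, ρ i (φ i)) (hN : Subsingleton (N.H n)) : Subsingleton (M.H n) := by
  rw [Cx.H_subsingleton_iff] at hN ⊢
  intro x _
  have hc : ∀ I : Finset (Fin (n + 1)), I.card = n + 1 ↔ I = univ := fun I => by
    rw [← card_eq_iff_eq_univ, Fintype.card_fin]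
  obtain ⟨φ, h1, h2⟩ := hs _ ((x.2 univ).1 ((hc _).2 rfl))
  choose c hc' using fun i => exists_coch (M := N) (p := n) (fun I y => I = univ → y = φ i)
    (fun I hI => ⟨φ i, (hc I).1 hI ▸ h1 i, fun _ => rfl⟩) fun I hI h3 => absurd ((hc I).2 h3) hI
  have h3 : x = ∑ i, (h i).hom.f n (c i) := by
    refine Subtype.ext (funext fun I => ?_)
    by_cases hI : I = univ
    · subst hI
      rw [h2]
      change _ = (((∑ i, (h i).cochMap n (c i) : M.coch n) : TC V n)) univ
      rw [AddSubmonoidClass.coe_finsetSum, Finset.sum_apply]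
      exact sum_congr rfl fun i _ => by rw [Fam.Maps.cochMap_coe, hc' i _ rfl]
    · rw [(x.2 I).2 (mt (hc I).1 hI)]
      exact ((Subtype.prop (p := (· ∈ M.coch n)) _ I).2 (mt (hc I).1 hI)).symm
  rw [h3]
  exact Submodule.sum_mem _ fun i _ => (h i).hom.map_B n
    (hN _ (coch_zero_of_lt (Nat.lt_succ_self n) _))

theorem chi_le {M : Fam k V n} (hn : n = 2) (h : M.cech.h n = 0) : M.chi ≤ finrank k (Γ M) := by
  subst hn
  simp only [Fam.chi, Cx.eul, sum_range_succ, sum_range_zero, h, h0_eq]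
  omega

end Fam

section Mdl

variable {k F : Type u} [Field k] [Field F] [Algebra k F] [CharZero k]
  [Algebra.EssFiniteType k F] (M : Mdl k F)

/-- the family of a b-divisor -/
def fm (a : BD k F) : Fam k F (dim k F) := ⟨M.L a, fun _ h => Mdl.L_mono h⟩

variable {M} {a b : BD k F}

omit [Algebra.EssFiniteType k F] in
theorem fin_fm (ha : a ∈ M.On) (p : ℕ) : Module.Finite k ((fm M a).H p) :=
  fin_fam (S := M.S) ⟨a, ha⟩ p

omit [Algebra.EssFiniteType k F] in
theorem h0_fm (ha : a ∈ M.On) : (fm M a).cech.h 0 = finrank k a.Sec := by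
  rw [h0_eq]
  exact congrArg (fun T : Submodule k F => finrank k T) (Mdl.Γ_fam ⟨a, ha⟩)

omit [Algebra.EssFiniteType k F] in
theorem serre_fm (ha : a ∈ M.On) :
    ∀ᶠ m : ℕ in atTop, (fm M (a + m • M.H)).chi = finrank k (a + m • M.H).Sec := by
  obtain ⟨e, he⟩ := cc_eq_h0 M.S (OX M.X) ⟨a, ha⟩
  filter_upwards [eventually_ge_atTop e.toNat] with m hm
  have h1 := he m (by omega)
  rw [cc_fam, hh_fam, natCast_zsmul] at h1
  exact h1.trans (congrArg _ (h0_fm (add_mem ha (nsmul_mem M.H_mem m))))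

/-- the top cohomology of `a + m H` vanishes if `H` is big -/
theorem top_big (hd : 0 < dim k F) (ha : a ∈ M.On) (hb : b ∈ M.On) (hB : Big b) :
    ∀ᶠ m : ℕ in atTop, (fm M (a + m • b)).cech.h (dim k F) = 0 := by
  obtain ⟨e, he⟩ := serre0 M.S (OX M.X)
  filter_upwards [hB.kodaira (e • M.H - a)] with m ⟨v, hv, h0⟩
  have h1 : m • b - (e • M.H - a) ∈ M.On :=
    sub_mem (nsmul_mem hb m) (sub_mem (zsmul_mem M.H_mem e) ha)
  have h2 := top_add (S := M.S) (a := ⟨_, h1⟩) (by rwa [Mdl.Γ_fam]) h0 (he e le_rfl _ hd)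
  rw [hh_fam] at h2
  rwa [show a + m • b = m • b - (e • M.H - a) + e • M.H by abel]

theorem chi_add (hd : dim k F = 2) (ha : a ∈ M.On) (hb : b ∈ M.On) :
    (fm M (a + b)).chi + (fm M 0).chi = (fm M a).chi + (fm M b).chi + bnum [a, b] := by
  have h := M.inter_eq (L := [⟨a, ha⟩, ⟨b, hb⟩]) hd.symm
  simp only [inter, difs_cons, difs_nil, fwdDiff, zero_add, cc_fam] at h
  change (fm M (a + b)).chi - (fm M a).chi - ((fm M b).chi - (fm M 0).chi) = bnum [a, b] at h
  omega

omit [Algebra.EssFiniteType k F] in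
theorem chi_lin (h : Lin a b) : (fm M a).chi = (fm M b).chi := by
  obtain ⟨f, hf, rfl⟩ := h
  refine (chi_iso (LinearEquiv.smulOfNeZero F F f hf |>.restrictScalars k) (fun I _ x hx => ?_)
    fun I _ x hx => ?_).symm
  · change f * x ∈ M.L _ I
    rw [mul_comm]
    exact Mdl.mul_mem_L hx (Mdl.Sec_le_L _ _ (mem_Sec_pr f))
  · have h1 := Mdl.mul_mem_L hx (Mdl.Sec_le_L (M := M) _ _ (mem_Sec_pr (k := k) f⁻¹))
    rw [pr_inv, add_neg_cancel_right, mul_comm] at h1
    exact h1

variable (M) in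
/-- the additive part of the Euler characteristic -/
def qq (a : BD k F) : ℤ := 2 * (fm M a).chi - 2 * (fm M 0).chi - bnum [a, a]

theorem qq_add (hd : dim k F = 2) (ha : a ∈ M.On) (hb : b ∈ M.On) :
    qq M (a + b) = qq M a + qq M b := by
  have h := chi_add hd ha hb
  have h1 : bnum [a + b, a + b] = bnum [a, a] + 2 * bnum [a, b] + bnum [b, b] := by
    rw [bnum_add, bnum_add2, bnum_add2, bnum_swap b a]
    ring
  unfold qq
  omega

theorem qq_zero : qq M (0 : BD k F) = 0 := by simp [qq, bnum_zero]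

theorem qq_lin (h : Lin a b) : qq M a = qq M b := by
  rw [qq, qq, chi_lin h, h.bnum_eq, bnum_swap, h.bnum_eq]

theorem qq_sum (hd : dim k F = 2) {ι : Type*} (s : Finset ι) {f : ι → BD k F}
    (h : ∀ i ∈ s, f i ∈ M.On) : qq M (∑ i ∈ s, f i) = ∑ i ∈ s, qq M (f i) := by
  classical
  induction s using Finset.induction_on with
  | empty => simpa using qq_zero
  | insert i s hi ih =>
    rw [sum_insert hi, sum_insert hi, qq_add hd (h i (by simp))
      (sum_mem fun j hj => h j (by simp [hj])), ih fun j hj => h j (by simp [hj])]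

theorem qq_nsmul (hd : dim k F = 2) (ha : a ∈ M.On) (m : ℕ) : qq M (m • a) = m * qq M a := by
  simpa using qq_sum hd (range m) (f := fun _ => a) fun _ _ => ha

end Mdl

end Crest.Agent.X262.Sg1
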