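import Crest.Agent.X262.Sg1.Coh
import Crest.Agent.X262.Surf.Bas

/-!
# Row 262, SURF (helper1), part 2: the lattice spanned by the columns of a matrix

* `pou`      : partitions of unity on a chart;
* `KF`, `PF`, `KK` : the lattice with its flag, the trivial lattice, the lattice of relations;
* `exact_KF`, `exact_PF`, `exact_KK`, `top_KK`.
-/

set_option autoImplicit false

noncomputable section

namespace Crest.Agent.X262.Sg1

open Crest.Agent.R274
open Cx_781 Defs_781 Ses_781 Lat_781 Finset Matrix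
open Crest.Agent.X277 Crest.Agent.X277.BD Crest.Agent.X277.AN.G2 Module Filter
open Crest.Agent.X277.Cns (KV)
open Crest.Agent.X262.Surf

variable {F : Type} [Field F] {N : ℕ} (Λ : ℕ → Fin N → F)

/-! ### linear algebra -/

/-- a square submatrix -/
abbrev mn (r : ℕ) (c : Fin r → Fin N) : Matrix (Fin r) (Fin r) F := Matrix.of fun i j => Λ i (c j)

/-- the matrix of the first rows as a linear map -/
def ap (r : ℕ) : (Fin N → F) →ₗ[F] (Fin r → F) :=
  Fintype.linearCombination F fun e (i : Fin r) => Λ i e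

theorem ap_apply (r : ℕ) (τ : Fin N → F) (i : Fin r) : ap Λ r τ i = ∑ e, τ e * Λ i e := by
  simp [ap, Fintype.linearCombination_apply]

/-- extension by zero along a choice of columns -/
def spr {r : ℕ} (c : Fin r → Fin N) : (Fin r → F) →ₗ[F] (Fin N → F) :=
  Fintype.linearCombination F fun l => Pi.single (c l) 1

theorem ap_single (r : ℕ) (e : Fin N) : ap Λ r (Pi.single e 1) = fun i : Fin r => Λ i e := by
  simp [ap, Fintype.linearCombination_apply_single]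

theorem ap_spr {r : ℕ} (c : Fin r → Fin N) (v : Fin r → F) :
    ap Λ r (spr c (cramer (mn Λ r c) v)) = (mn Λ r c).det • v := by
  rw [← mulVec_cramer]
  funext i
  simp [spr, Fintype.linearCombination_apply, ap_single, mulVec, dotProduct, mul_comm]

theorem cramer_col {r : ℕ} (c : Fin r → Fin N) (e : Fin N) (l : Fin r) :
    cramer (mn Λ r c) (fun i => Λ i e) l = (mn Λ r (Function.update c l e)).det := by
  rw [cramer_apply]
  congr 1
  ext i j
  by_cases h : j = l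
  · simp [h]
  · simp [h]

theorem cramer_last {r : ℕ} (c : Fin (r + 1) → Fin N) (l : Fin (r + 1)) :
    cramer (mn Λ (r + 1) c) (Pi.single (Fin.last r) 1) l =
      (-1) ^ (r + l : ℕ) * (mn Λ r fun j => c (l.succAbove j)).det := by
  rw [cramer_apply, det_succ_column _ l, sum_eq_single (Fin.last r)]
  · rw [updateCol_self, Pi.single_eq_same, mul_one]
    congr 2
    ext i j
    simp [Fin.succAbove_last]
  · intro i _ hi
    rw [updateCol_self, Pi.single_eq_of_ne hi, mul_zero, zero_mul]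
  · simp

/-- the Cramer relations between the columns -/
def rel (r : ℕ) (p : (Fin r → Fin N) × Fin N) : Fin N → F :=
  (mn Λ r p.1).det • Pi.single p.2 1 - spr p.1 (cramer (mn Λ r p.1) fun i => Λ i p.2)

theorem ap_rel (r : ℕ) (p : (Fin r → Fin N) × Fin N) : ap Λ r (rel Λ r p) = 0 := by
  rw [rel, map_sub, map_smul, ap_single, ap_spr, sub_self]

theorem sum_rel {r : ℕ} (c : Fin r → Fin N) {τ : Fin N → F} (h : ap Λ r τ = 0) :
    ∑ e, τ e • rel Λ r (c, e) = (mn Λ r c).det • τ := by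
  have h1 : ∑ e, τ e • (fun i : Fin r => Λ i e) = 0 := h
  simp only [rel, smul_sub, sum_sub_distrib, ← map_smul, ← map_sum, h1, map_zero, sub_zero]
  funext e
  simp [Pi.single_apply, mul_comm]

variable [Algebra ℂ F] {Λ}

theorem v_sum_le {ι : Type*} {V : RZ ℂ F} {γ : V.1.ValueGroup} {s : Finset ι} {f : ι → F}
    (h : ∀ i ∈ s, V.v (f i) ≤ γ) : V.v (∑ i ∈ s, f i) ≤ γ := V.v.map_sum_le h

theorem v_single (V : RZ ℂ F) (e e' : Fin N) : V.v ((Pi.single e 1 : Fin N → F) e') ≤ 1 := by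
  rw [Pi.single_apply]
  split_ifs <;> simp

theorem v_spr {V : RZ ℂ F} {γ : V.1.ValueGroup} {r : ℕ} (c : Fin r → Fin N) {w : Fin r → F}
    (h : ∀ l, V.v (w l) ≤ γ) (e : Fin N) : V.v (spr c w e) ≤ γ := by
  rw [spr, Fintype.linearCombination_apply, Finset.sum_apply]
  refine v_sum_le fun l _ => ?_
  rw [Pi.smul_apply, smul_eq_mul, map_mul]
  exact (mul_le_of_le_one_right' (v_single V _ _)).trans (h l)

theorem v_det (V : RZ ℂ F) {r : ℕ} (c : Fin r → Fin N) : V.v (mn Λ r c).det ≤ (Dm Λ r).val V :=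
  mem_Sec_mxf (fun c => (mn Λ r c).det) c V

theorem v_cramer {V : RZ ℂ F} {γ : V.1.ValueGroup} {r : ℕ} (c : Fin r → Fin N) {τ : Fin N → F}
    (h : ∀ e, V.v (τ e) ≤ γ) (l : Fin r) :
    V.v (cramer (mn Λ r c) (ap Λ r τ) l) ≤ γ * (Dm Λ r).val V := by
  rw [ap, Fintype.linearCombination_apply, map_sum, Finset.sum_apply]
  refine v_sum_le fun e _ => ?_
  rw [map_smul, Pi.smul_apply, cramer_col, smul_eq_mul, map_mul]
  exact mul_le_mul' (h e) (v_det V _)

theorem v_last (V : RZ ℂ F) {r : ℕ} (c : Fin (r + 1) → Fin N) (l : Fin (r + 1)) :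
    V.v (cramer (mn Λ (r + 1) c) (Pi.single (Fin.last r) 1) l) =
      V.v (mn Λ r fun j => c (l.succAbove j)).det := by
  rw [cramer_last, map_mul, map_pow, Valuation.map_neg, map_one, one_pow, one_mul]

theorem v_rel (V : RZ ℂ F) {r : ℕ} (p : (Fin r → Fin N) × Fin N) (e : Fin N) :
    V.v (rel Λ r p e) ≤ (Dm Λ r).val V := by
  refine (V.v.map_sub _ _).trans (max_le ?_ (v_spr _ (fun l => ?_) e))
  · rw [Pi.smul_apply, smul_eq_mul, map_mul]
    exact (mul_le_of_le_one_right' (v_single V _ _)).trans (v_det V _)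
  · rw [cramer_col]
    exact v_det V _

/-! ### charts -/

variable {M : Mdl ℂ F} {I : Finset (Fin (dim ℂ F + 1))} {y : BD ℂ F}

/-- partitions of unity -/
theorem pou {ι : Type} [Fintype ι] {s : ι → F} (h0 : ∃ i, s i ≠ 0) (hs : mxf ℂ s ∈ M.On)
    (hI : I.Nonempty) : ∃ u : ι → F, (∀ i, u i ∈ M.L (-mxf ℂ s) I) ∧ ∑ i, u i * s i = 1 := by
  classical
  let J : Ideal (M.X.A I) :=
    { carrier := {y | ∃ u : ι → F, (∀ i, u i ∈ M.L (-mxf ℂ s) I) ∧ ∑ i, u i * s i = y}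
      add_mem' := by
        rintro a b ⟨u, h1, h2⟩ ⟨u', h3, h4⟩
        exact ⟨u + u', fun i => add_mem (h1 i) (h3 i), by simp [add_mul, sum_add_distrib, h2, h4]⟩
      zero_mem' := ⟨0, fun _ => zero_mem _, by simp⟩
      smul_mem' := by
        rintro c a ⟨u, h1, h2⟩
        refine ⟨fun i => c * u i, fun i => zero_add (-mxf ℂ s) ▸
          Mdl.mul_mem_L (Mdl.mem_L_zero.2 c.2) (h1 i), ?_⟩
        simp only [mul_assoc, ← mul_sum, h2]
        rfl }
  by_contra hc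
  obtain ⟨V, hV, hJ⟩ := VV.exists_of_ne_top J fun h => hc ((Ideal.eq_top_iff_one J).1 h)
  obtain ⟨i, hi⟩ := hI
  let W : RZ ℂ F := ⟨V, KV.of_le hV⟩
  have hV' : M.In W I := Mdl.in_iff_ch.2 hV
  obtain ⟨f, hf, g, hg, h⟩ := hs i _ (hV'.mono (singleton_subset_iff.2 hi))
  have hf' := Mdl.L_mono (singleton_subset_iff.2 hi) hf
  have hg' := Mdl.L_mono (singleton_subset_iff.2 hi) hg
  obtain ⟨j, hj⟩ := exists_val_mxf (k := ℂ) h0 W
  have h1 : g * s j ∈ M.X.A I := Mdl.mem_L_zero.1 (neg_add_cancel (mxf ℂ s) ▸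
    Mdl.mul_mem_L hg' (Mdl.Sec_le_L _ _ (mem_Sec_mxf s j)))
  have h2 := hJ ⟨_, h1⟩ ⟨Pi.single j g, fun l => by
    rw [Pi.single_apply]
    split_ifs
    exacts [hg', zero_mem _], by simp [Pi.single_apply]⟩
  refine h2.not_ge ?_
  change 1 ≤ W.v (g * s j)
  rw [← h, mul_comm f, map_mul, map_mul, hj]
  exact mul_le_mul_right (hf' W hV') _

variable (M Λ) in
/-- the lattice of the columns, with its flag -/
def KF (k : ℕ) (y : BD ℂ F) (j : ℕ) : Fam ℂ (Fin k → F) (dim ℂ F) where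
  M I :=
    { carrier := {v | (∀ V, M.In V I → ∃ τ, (∀ e, V.v (τ e) ≤ y.val V) ∧ v = ap Λ k τ) ∧
        ∀ i : Fin k, i.1 < j → v i = 0}
      add_mem' := fun ha hb => ⟨fun V hV => by
        obtain ⟨τ, h1, h2⟩ := ha.1 V hV
        obtain ⟨τ', h3, h4⟩ := hb.1 V hV
        exact ⟨τ + τ', fun e => (V.v.map_add _ _).trans (max_le (h1 e) (h3 e)), by
          rw [map_add, ← h2, ← h4]⟩, fun i hi => by simp [ha.2 i hi, hb.2 i hi]⟩
      zero_mem' := ⟨fun V _ => ⟨0, by simp, by simp⟩, fun _ _ => rfl⟩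
      smul_mem' := fun c v hv => ⟨fun V hV => by
        obtain ⟨τ, h1, h2⟩ := hv.1 V hV
        exact ⟨c • τ, fun e => (V.v_smul_le c _).trans (h1 e), by
          rw [LinearMap.map_smul_of_tower, ← h2]⟩, fun i hi => by simp [hv.2 i hi]⟩ }
  mono _ h _ hv := ⟨fun V hV => hv.1 V (hV.mono h), hv.2⟩

variable (M N) in
/-- the trivial lattice, with its flag -/
def PF (y : BD ℂ F) (j : ℕ) : Fam ℂ (Fin N → F) (dim ℂ F) where
  M I :=
    { carrier := {τ | (∀ e, τ e ∈ M.L y I) ∧ ∀ e : Fin N, e.1 < j → τ e = 0}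
      add_mem' := fun ha hb => ⟨fun e => add_mem (ha.1 e) (hb.1 e),
        fun i hi => by simp [ha.2 i hi, hb.2 i hi]⟩
      zero_mem' := ⟨fun _ => zero_mem _, fun _ _ => rfl⟩
      smul_mem' := fun c v hv => ⟨fun e => Submodule.smul_mem _ c (hv.1 e),
        fun i hi => by simp [hv.2 i hi]⟩ }
  mono _ h _ hv := ⟨fun e => Mdl.L_mono h (hv.1 e), hv.2⟩

variable (M Λ) in
/-- the lattice of relations -/
def KK (k : ℕ) (y : BD ℂ F) : Fam ℂ (Fin N → F) (dim ℂ F) where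
  M I :=
    { carrier := {τ | (∀ e, τ e ∈ M.L y I) ∧ ap Λ k τ = 0}
      add_mem' := fun ha hb => ⟨fun e => add_mem (ha.1 e) (hb.1 e), by
        rw [map_add, ha.2, hb.2, add_zero]⟩
      zero_mem' := ⟨fun _ => zero_mem _, map_zero _⟩
      smul_mem' := fun c v hv => ⟨fun e => Submodule.smul_mem _ c (hv.1 e), by
        rw [LinearMap.map_smul_of_tower, hv.2, smul_zero]⟩ }
  mono _ h _ hv := ⟨fun e => Mdl.L_mono h (hv.1 e), hv.2⟩

/-- a coordinate -/
def co (F : Type) [Field F] [Algebra ℂ F] (k j : ℕ) : (Fin k → F) →ₗ[ℂ] F :=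
  if h : j < k then LinearMap.proj ⟨j, h⟩ else 0

theorem co_apply {k j : ℕ} (h : j < k) (v : Fin k → F) : co F k j v = v ⟨j, h⟩ := by
  rw [co, dif_pos h]
  rfl

theorem zero_succ {k j : ℕ} (h : j < k) {v : Fin k → F} (h1 : ∀ i : Fin k, i.1 < j → v i = 0)
    (h2 : co F k j v = 0) (i : Fin k) (hi : i.1 < j + 1) : v i = 0 := by
  rcases (Nat.lt_succ_iff.1 hi).lt_or_eq with h3 | h3
  · exact h1 i h3
  · subst h3
    exact (co_apply h v).symm.trans h2

theorem exact_PF {j : ℕ} (h : j < N) :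
    Exact (PF N M y (j + 1)) (PF N M y j) (fm M y) LinearMap.id (co F N j) where
  maps _ _ _ hx := ⟨hx.1, fun e he => hx.2 e (by omega)⟩
  maps' _ _ x hx := co_apply h x ▸ hx.1 _
  inj _ _ _ _ h := h
  comp _ _ x hx := (co_apply h x).trans (hx.2 _ (Nat.lt_succ_self j))
  ex _ _ x hx h0 := ⟨x, ⟨hx.1, zero_succ h hx.2 h0⟩, rfl⟩
  surj _ _ z hz := ⟨Pi.single ⟨j, h⟩ z, ⟨fun e => by
    rw [Pi.single_apply]
    split_ifs
    exacts [hz, zero_mem _], fun e he => Pi.single_eq_of_ne (fun h1 => by simp [h1] at he) _⟩, by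
    simp [co_apply h]⟩

/-- vectors whose Cramer coordinates are bounded come from sections on the chart -/
theorem exists_lift {r : ℕ} (hr : Rk Λ r) (hD : Dm Λ r ∈ M.On) (hI : I.Nonempty) {v : Fin r → F}
    (h : ∀ c l, cramer (mn Λ r c) v l ∈ M.L (y + Dm Λ r) I) :
    ∃ τ, (∀ e, τ e ∈ M.L y I) ∧ ap Λ r τ = v := by
  obtain ⟨u, h1, h2⟩ := pou (s := fun c => (mn Λ r c).det) hr hD hI
  refine ⟨∑ c, u c • spr c (cramer (mn Λ r c) v), fun e => ?_, ?_⟩
  · rw [Finset.sum_apply]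
    refine Submodule.sum_mem _ fun c _ => ?_
    have h3 : spr c (cramer (mn Λ r c) v) e ∈ M.L (y + Dm Λ r) I := fun V hV =>
      v_spr c (fun l => h c l V hV) e
    have h4 := Mdl.mul_mem_L (h1 c) h3
    rwa [show -mxf ℂ (fun c => (mn Λ r c).det) + (y + Dm Λ r) = y by
      rw [add_comm y]; exact neg_add_cancel_left _ _] at h4
  · simp only [map_sum, map_smul, ap_spr, smul_smul, ← sum_smul, h2, one_smul]

theorem exact_KF {k j : ℕ} (h : j < k) (hr : Rk Λ (j + 1)) (hD : Dm Λ (j + 1) ∈ M.On) :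
    Exact (KF Λ M k y (j + 1)) (KF Λ M k y j) (fm M (Nm Λ j + y)) LinearMap.id (co F k j) where
  maps _ _ _ hx := ⟨hx.1, fun e he => hx.2 e (by omega)⟩
  maps' I _ x hx V hV := by
    obtain ⟨τ, h1, rfl⟩ := hx.1 V hV
    obtain ⟨c, hc⟩ := exists_val_mxf (k := ℂ) hr.of_succ V
    obtain ⟨c0, -⟩ := hr
    have h2 : ap Λ (j + 1) τ = ap Λ k τ ⟨j, h⟩ • Pi.single (Fin.last j) 1 := by
      funext i
      refine Fin.lastCases ?_ (fun i => ?_) i
      · simp [ap_apply]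
      · have h3 := hx.2 ⟨i, i.2.trans h⟩ i.2
        rw [ap_apply] at h3
        simp [ap_apply, h3, (Fin.castSucc_lt_last i).ne]
    have h3 := v_cramer (Λ := Λ) (Fin.snoc c (c0 0) : Fin (j + 1) → Fin N) h1 (Fin.last j)
    rw [h2, map_smul, Pi.smul_apply, smul_eq_mul, map_mul, v_last] at h3
    simp only [Fin.succAbove_last, Fin.snoc_castSucc] at h3
    rw [co_apply h, val_add, Nm, val_sub, div_mul_eq_mul_div, le_div_iff₀ (val_pos _ V),
      mul_comm _ (y.val V)]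
    exact (congrArg _ hc).ge.trans h3
  inj _ _ _ _ h := h
  comp _ _ x hx := (co_apply h x).trans (hx.2 _ (Nat.lt_succ_self j))
  ex _ _ x hx h0 := ⟨x, ⟨hx.1, zero_succ h hx.2 h0⟩, rfl⟩
  surj I hI z hz := by
    obtain ⟨τ, h1, h2⟩ := exists_lift (y := y) hr hD hI (v := z • Pi.single (Fin.last j) 1)
      fun c l => by
        have h3 : cramer (mn Λ (j + 1) c) (Pi.single (Fin.last j) 1) l ∈ M.L (Dm Λ j) I :=
          fun V _ => (v_last V c l).trans_le (v_det V _)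
        have h4 := Mdl.mul_mem_L hz h3
        rw [show Nm Λ j + y + Dm Λ j = y + Dm Λ (j + 1) by rw [Nm]; abel] at h4
        rwa [map_smul]
    refine ⟨ap Λ k τ, ⟨fun V hV => ⟨τ, fun e => h1 e V hV, rfl⟩, fun i hi => ?_⟩, ?_⟩
    · have h3 := congrFun h2 (Fin.castSucc ⟨i, hi⟩)
      rw [ap_apply, Pi.smul_apply, Pi.single_eq_of_ne (Fin.castSucc_lt_last _).ne,
        smul_zero] at h3
      exact (ap_apply Λ k τ i).trans h3
    · have h3 := congrFun h2 (Fin.last j)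
      rw [ap_apply] at h3
      rw [co_apply h, ap_apply]
      simpa using h3

theorem exact_KK {k : ℕ} (hr : Rk Λ k) (hD : Dm Λ k ∈ M.On) :
    Exact (KK Λ M k y) (PF N M y 0) (KF Λ M k y 0) LinearMap.id ((ap Λ k).restrictScalars ℂ) where
  maps _ _ _ hx := ⟨hx.1, fun _ he => absurd he (Nat.not_lt_zero _)⟩
  maps' _ _ x hx := ⟨fun V hV => ⟨x, fun e => hx.1 e V hV, rfl⟩,
    fun _ he => absurd he (Nat.not_lt_zero _)⟩
  inj _ _ _ _ h := h
  comp _ _ _ hx := hx.2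
  ex _ _ x hx h0 := ⟨x, ⟨hx.1, h0⟩, rfl⟩
  surj I hI z hz := by
    obtain ⟨τ, h1, h2⟩ := exists_lift (y := y) hr hD hI (v := z) fun c l V hV => by
      obtain ⟨τ, h1, rfl⟩ := hz.1 V hV
      exact v_cramer c h1 l
    exact ⟨τ, ⟨h1, fun _ he => absurd he (Nat.not_lt_zero _)⟩, h2⟩

theorem top_KK {k : ℕ} (hr : Rk Λ k) (hD : Dm Λ k ∈ M.On)
    (h : Subsingleton ((fm M (-Dm Λ k + y)).H (dim ℂ F))) :
    Subsingleton ((KK Λ M k y).H (dim ℂ F)) := by
  refine top_of_gen (fun p => (LinearMap.toSpanSingleton F _ (rel Λ k p)).restrictScalars ℂ)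
    (fun p I _ x hx => ⟨fun e => ?_, ?_⟩) (fun τ hτ => ?_) h
  · have h1 := Mdl.mul_mem_L hx (show rel Λ k p e ∈ M.L (Dm Λ k) I from fun V _ => v_rel V p e)
    rwa [show -Dm Λ k + y + Dm Λ k = y by abel] at h1
  · change ap Λ k (x • rel Λ k p) = 0
    rw [map_smul, ap_rel, smul_zero]
  · obtain ⟨u, h1, h2⟩ := pou (s := fun c => (mn Λ k c).det) hr hD univ_nonempty
    refine ⟨fun p => u p.1 * τ p.2, fun p => Mdl.mul_mem_L (h1 p.1) (hτ.1 p.2), ?_⟩
    change τ = ∑ p : (Fin k → Fin N) × Fin N, (u p.1 * τ p.2) • rel Λ k p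
    simp only [Fintype.sum_prod_type, mul_smul, ← smul_sum, sum_rel Λ _ hτ.2]
    simp only [smul_smul, ← sum_smul, h2, one_smul]

theorem Γ_KF (k : ℕ) : Γ (KF Λ M k y 0) = latSec Λ k y := by
  ext v
  rw [mem_Γ]
  refine ⟨fun h V => ?_, fun h i => ⟨fun V _ => ?_, fun _ he => absurd he (Nat.not_lt_zero _)⟩⟩
  · obtain ⟨i, hi⟩ := M.exists_in V
    obtain ⟨τ, h1, rfl⟩ := (h i).1 V hi
    exact ⟨τ, h1, ap_apply Λ k τ⟩
  · obtain ⟨τ, h1, h2⟩ := h V
    exact ⟨τ, h1, funext fun i => (h2 i).trans (ap_apply Λ k τ i).symm⟩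

theorem filt_KF {k : ℕ} (hr : Rk Λ k) (hD : ∀ r ≤ k, Dm Λ r ∈ M.On) (hy : y ∈ M.On) :
    (∀ p, Module.Finite ℂ ((KF Λ M k y 0).H p)) ∧
      (KF Λ M k y 0).chi = ∑ r ∈ range k, (fm M (Nm Λ r + y)).chi ∧
        ∀ p, (KF Λ M k y 0).cech.h p ≤ ∑ r ∈ range k, (fm M (Nm Λ r + y)).cech.h p :=
  filt (KF Λ M k y) _ (co F k) k (fun _ hj => exact_KF hj (hr.of_le hj) (hD _ hj))
    (fun _ _ _ hx => funext fun i => hx.2 i i.2) fun _ hj =>
      fin_fm (add_mem (sub_mem (hD _ hj) (hD _ hj.le)) hy)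

theorem filt_PF (hy : y ∈ M.On) : (∀ p, Module.Finite ℂ ((PF N M y 0).H p)) ∧
    (PF N M y 0).chi = N * (fm M y).chi ∧ ∀ p, (PF N M y 0).cech.h p ≤ N * (fm M y).cech.h p := by
  simpa using filt (PF N M y) (fun _ => fm M y) (co F N) N (fun j hj => exact_PF hj)
    (fun _ _ _ hx => funext fun i => hx.2 i i.2) fun _ _ => fin_fm hy

end Crest.Agent.X262.Sg1
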